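import Vale.Agent.P144C.Defs
import Vale.Agent.P144D.Dom.A

/-!
Sign changes at corners: from the plane to the lattice.
-/

namespace Vale.Agent.P144C.P

open Metric Set Filter Topology Vale.Agent.P144Z B6a

/-- The scalar product of the plane. -/
def dt (v ν : ℂ) : ℝ := v.re * ν.re + v.im * ν.im

theorem dt_add (u v ν : ℂ) : dt (u + v) ν = dt u ν + dt v ν := by
  simp only [dt, Complex.add_re, Complex.add_im]
  ring

theorem dt_neg (v ν : ℂ) : dt (-v) ν = -dt v ν := by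
  simp only [dt, Complex.neg_re, Complex.neg_im]
  ring

theorem nsq (v : ℂ) : ‖v‖ ^ 2 = v.re ^ 2 + v.im ^ 2 := by
  rw [Complex.sq_norm, Complex.normSq_apply]
  ring

theorem dt_le {ν : ℂ} (hν : ‖ν‖ = 1) (v : ℂ) : |dt v ν| ≤ ‖v‖ := by
  refine abs_le_of_sq_le_sq ?_ (norm_nonneg v)
  have h := nsq ν
  rw [hν] at h
  rw [nsq, dt]
  nlinarith [sq_nonneg (v.re * ν.im - v.im * ν.re)]

theorem pyth {ν τ : ℂ} (hν : ‖ν‖ = 1) (hτ : τ = Complex.I * ν ∨ τ = -(Complex.I * ν)) (v : ℂ) :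
    dt v ν ^ 2 + dt v τ ^ 2 = ‖v‖ ^ 2 := by
  have h := nsq ν
  rw [hν] at h
  rw [nsq]
  rcases hτ with rfl | rfl <;> simp [dt] <;> linear_combination (-(v.re ^ 2 + v.im ^ 2)) * h

theorem cone_of {ν v : ℂ} {t : ℝ} (hν : ‖ν‖ = 1) (h : 2 * ‖v - t * ν‖ ≤ t) :
    √2 / 2 * ‖v‖ ≤ dt v ν := by
  obtain ⟨e, rfl⟩ : ∃ e, v = e + t * ν := ⟨v - t * ν, by ring⟩
  rw [add_sub_cancel_right] at h
  have h1 := nsq ν
  rw [hν] at h1
  have h2 := abs_le.1 (dt_le hν e)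
  have h3 : dt (e + t * ν) ν = t + dt e ν := by
    simp [dt]
    linear_combination (-t) * h1
  have h4 : ‖e + t * ν‖ ^ 2 = ‖e‖ ^ 2 + 2 * t * dt e ν + t ^ 2 := by
    rw [nsq, nsq]
    simp [dt]
    linear_combination (-t ^ 2) * h1
  have h5 := norm_nonneg e
  refine le_of_sq_le_sq ?_ (by linarith)
  rw [mul_pow, div_pow, Real.sq_sqrt (by norm_num), h3, h4]
  nlinarith [sq_nonneg (t + 2 * dt e ν), mul_le_mul h h (by positivity) (by linarith)]

theorem nc {S : Set ℂ} {ν s y v : ℂ} (hν : ‖ν‖ = 1) (hS : Cone S ν (√2 / 2)) (hs : s ∈ S)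
    (hy : y ∉ S) (h : 100 * ‖y - s - v‖ ≤ ‖v‖) : dt v ν ≤ 4 / 5 * ‖v‖ := by
  by_contra k
  refine hy ((add_sub_cancel s y).subst (hS s hs (y - s) ?_))
  have h1 := dt_add v (y - s - v) ν
  have h2 := norm_add_le v (y - s - v)
  rw [add_sub_cancel] at h1 h2
  have h3 := (abs_le.1 (dt_le hν (y - s - v))).1
  have h4 := mul_le_mul_of_nonneg_right Real.sqrt_two_lt_three_halves.le (norm_nonneg (y - s))
  have h5 := norm_nonneg v
  change _ ≤ dt (y - s) ν
  linarith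

/-- The quantitative form of a sign change at `z`. -/
def Ty (Ex : Set ℂ → Prop) (D P : Set ℂ) (z : ℂ) (R : ℝ) : Prop :=
  ∃ (S : Set ℂ) (ν τ : ℂ), ‖ν‖ = 1 ∧ (τ = Complex.I * ν ∨ τ = -(Complex.I * ν)) ∧
    Cone S ν (√2 / 2) ∧ Ex S ∧ (∀ w ∈ ball z R, w ∈ D ↔ w ∈ S) ∧
    ∀ w ∈ ball z R, w ∉ D → ∀ u ∈ ball z R, u ∈ D → ‖w - u‖ ≤ R * ‖w - z‖ →
      ∀ e : ℂ, 2 * ‖e‖ < ‖w - z‖ → (w ∈ P ↔ 0 < dt (w - z + e) τ)

/-- The boundary condition is constant on `t`. -/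
def Cs (D P t : Set ℂ) : Prop := t \ D ⊆ P ∨ t \ D ⊆ Pᶜ

theorem Cs.mono {D P t t' : Set ℂ} (h : Cs D P t) (k : t' ⊆ t) : Cs D P t' :=
  h.imp (sdiff_subset_sdiff_left k).trans (sdiff_subset_sdiff_left k).trans

variable {Ex : Set ℂ → Prop} {D P : Set ℂ}

theorem ty (hD : IsOpen D) (h : PWL Ex D P) {z : ℂ} (hz : z ∈ frontier D) :
    (∃ r > 0, Cs D P (ball z r)) ∨ ∀ᶠ R in 𝓝[>] (0 : ℝ), Ty Ex D P z R := by
  obtain ⟨r, r0, h | h | ⟨S, ν, τ, α, hν, hτ, α0, hS, hE, e, h⟩⟩ := h z hz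
  · exact Or.inl ⟨r, r0, Or.inl h⟩
  · exact Or.inl ⟨r, r0, Or.inr h⟩
  right
  have e' : ∀ w ∈ ball z r, w ∈ D ↔ w ∈ S := fun w hw => by simpa [hw] using Set.ext_iff.1 e w
  filter_upwards [Ioo_mem_nhdsGT (show 0 < min r (min α (1 / 100)) by positivity)] with R ⟨_, hR⟩
  simp only [lt_min_iff] at hR
  have b := ball_subset_ball (x := z) hR.1.le
  refine ⟨S, ν, τ, hν, hτ, hS, hE, fun w hw => e' w (b hw), fun w hw w1 u hu u1 k d hd => ?_⟩
  have L0 : 0 < ‖w - z‖ := by linarith [norm_nonneg d]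
  have τ1 : ‖τ‖ = 1 := by rcases hτ with rfl | rfl <;> simp [hν]
  rw [h w ⟨b hw, w1⟩ ((infDist_le_dist_of_mem u1).trans_lt (by
    rw [dist_eq_norm]
    nlinarith))]
  obtain ⟨s, s1, s2⟩ := Metric.mem_closure_iff.1 (frontier_subset_closure hz)
    (min r (‖w - z‖ / 100)) (by positivity)
  rw [lt_min_iff, dist_eq_norm] at s2
  have a1 := nc (v := w - z) hν hS ((e' s (by rw [mem_ball', dist_eq_norm]; exact s2.1)).1 s1)
    (mt (e' w (b hw)).2 w1) (by rw [show w - s - (w - z) = z - s by ring]; linarith)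
  have a2 := nc (v := -(w - z)) hν hS ((e' u (b hu)).1 u1)
    (mt (e' z (mem_ball_self r0)).2 (by simpa [hD.interior_eq] using hz.2)) (by
      rw [show z - u - -(w - z) = w - u by ring, norm_neg]
      nlinarith)
  rw [dt_neg, norm_neg] at a2
  have a3 := pyth hν hτ (w - z)
  have a4 : ‖w - z‖ / 2 ≤ |dt (w - z) τ| := by
    refine (le_abs_self _).trans (sq_le_sq.1 ?_)
    nlinarith
  have a5 := abs_le.1 (dt_le τ1 d)
  change 0 < dt (w - z) τ ↔ _
  rw [dt_add]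
  rcases le_abs'.1 a4 with a6 | a6 <;> constructor <;> intro <;> linarith

theorem Ty.cs {z y u : ℂ} {R δ : ℝ} (h : Ty Ex D P z R) (hb : closedBall y δ ⊆ ball z R)
    (hu : u ∈ closedBall y δ) (u1 : u ∈ D) (h1 : 4 * δ < ‖y - z‖) (h2 : 4 * δ ≤ R * ‖y - z‖) :
    Cs D P (closedBall y δ) := by
  obtain ⟨S, ν, τ, -, -, -, -, -, h⟩ := h
  have R0 : 0 < R := pos_of_mem_ball (hb hu)
  have k : ∀ w ∈ closedBall y δ \ D, (w ∈ P ↔ 0 < dt (y - z) τ) := fun w ⟨w1, w2⟩ => by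
    have a1 := norm_sub_le_norm_sub_add_norm_sub y w z
    have a2 := norm_sub_le_norm_sub_add_norm_sub w y u
    have a3 := mem_closedBall_iff_norm'.1 w1
    have a4 := mem_closedBall_iff_norm'.1 hu
    have a5 := norm_nonneg (y - w)
    rw [norm_sub_rev w y] at a2
    simpa [show w - z + (y - w) = y - z by ring] using
      h w (hb w1) w2 u (hb hu) u1 (by nlinarith) (y - w) (by linarith)
  by_cases c : 0 < dt (y - z) τ
  · exact Or.inl fun w hw => (k w hw).2 c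
  · exact Or.inr fun w hw => mt (k w hw).1 c

theorem Ty.iso {z y : ℂ} {R : ℝ} (h : Ty Ex D P z R) (hy : y ∈ ball z R) (y1 : y ∈ closure D)
    (y2 : y ≠ z) : ∃ r > 0, Cs D P (ball y r) := by
  have R0 : 0 < R := pos_of_mem_ball hy
  have L0 : 0 < ‖y - z‖ := norm_pos_iff.2 (sub_ne_zero.2 y2)
  have r0 := sub_pos.2 (mem_ball.1 hy)
  obtain ⟨δ, δ0, a1, a2, a3⟩ : ∃ δ > 0, δ < R - dist y z ∧ 4 * δ < ‖y - z‖ ∧
      4 * δ ≤ R * ‖y - z‖ :=
    ⟨min ((R - dist y z) / 2) (min (‖y - z‖ / 5) (R * ‖y - z‖ / 4)), by positivity,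
      (min_le_left _ _).trans_lt (half_lt_self r0),
      by linarith [min_le_right ((R - dist y z) / 2) (min (‖y - z‖ / 5) (R * ‖y - z‖ / 4)),
        min_le_left (‖y - z‖ / 5) (R * ‖y - z‖ / 4)],
      by linarith [min_le_right ((R - dist y z) / 2) (min (‖y - z‖ / 5) (R * ‖y - z‖ / 4)),
        min_le_right (‖y - z‖ / 5) (R * ‖y - z‖ / 4)]⟩
  obtain ⟨u, u1, u2⟩ := Metric.mem_closure_iff.1 y1 δ δ0
  exact ⟨δ, δ0, (h.cs (closedBall_subset_ball' (by linarith)) (mem_closedBall'.2 u2.le) u1 a2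
    a3).mono ball_subset_closedBall⟩

theorem cont (hD : IsOpen D) (hb : Bornology.IsBounded D) (h : PWL Ex D P) :
    ∃ G : Finset ℂ, ∃ R > (0 : ℝ), ∃ δ > (0 : ℝ), (∀ z ∈ G, z ∈ frontier D ∧ Ty Ex D P z R ∧
      ∀ y ∈ G, y ∈ ball z R → y = z) ∧
      ∀ u ∈ D, Cs D P (ball u δ) ∨ ∃ z ∈ G, ball u δ ⊆ ball z R := by
  obtain ⟨G, hG⟩ : ∃ G : Set ℂ, ∀ z, z ∈ G ↔ z ∈ frontier D ∧ ¬ ∃ r > 0, Cs D P (ball z r) :=
    ⟨_, fun _ => Iff.rfl⟩
  have iso : ∀ z R, Ty Ex D P z R → ∀ y ∈ G, y ∈ ball z R → y = z := fun z R k y y1 y2 => by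
    by_contra c
    exact ((hG y).1 y1).2 (k.iso y2 (frontier_subset_closure ((hG y).1 y1).1) c)
  have cK := hb.isCompact_closure
  have gf : G.Finite := by
    have a1 : ∀ z ∈ frontier D, ∃ r > (0 : ℝ), ∀ y ∈ G, y ∈ ball z r → y = z := fun z hz => by
      rcases ty hD h hz with ⟨r, r0, k⟩ | k
      · exact ⟨r, r0, fun y y1 y2 => (((hG y).1 y1).2 ⟨r - dist y z, sub_pos.2 y2,
          k.mono (ball_subset_ball' (by linarith))⟩).elim⟩
      · obtain ⟨R, k1, k2⟩ := (k.and self_mem_nhdsWithin).exists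
        exact ⟨R, k2, iso z R k1⟩
    choose! r r0 hr using a1
    obtain ⟨t, t1, t2⟩ := (cK.of_isClosed_subset isClosed_frontier
      frontier_subset_closure).elim_nhds_subcover (fun z => ball z (r z))
        fun z hz => ball_mem_nhds z (r0 z hz)
    refine t.finite_toSet.subset fun y hy => ?_
    obtain ⟨z, z1, z2⟩ := mem_iUnion₂.1 (t2 ((hG y).1 hy).1)
    rwa [hr z (t1 z z1) y hy z2]
  obtain ⟨R, k1, R0⟩ := (((eventually_all_finite gf).2 fun z hz =>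
    (ty hD h ((hG z).1 hz).1).resolve_left ((hG z).1 hz).2).and self_mem_nhdsWithin).exists
  obtain ⟨δ, δ0, k⟩ := lebesgue_number_lemma_of_metric_sUnion
    (c := {t | IsOpen t ∧ (Cs D P t ∨ ∃ z ∈ G, t = ball z R)}) cK (fun t ht => ht.1) fun u hu => by
      by_cases c : u ∈ D
      · exact ⟨D, ⟨hD, Or.inl (Or.inl (by simp))⟩, c⟩
      by_cases c' : u ∈ G
      · exact ⟨_, ⟨isOpen_ball, Or.inr ⟨u, c', rfl⟩⟩, mem_ball_self R0⟩
      obtain ⟨r, r0, k⟩ := not_not.1 (not_and.1 (mt (hG u).2 c') ⟨hu, by simpa [hD.interior_eq]⟩)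
      exact ⟨_, ⟨isOpen_ball, Or.inl k⟩, mem_ball_self r0⟩
  refine ⟨gf.toFinset, R, R0, δ, δ0, fun z hz => ?_, fun u hu => ?_⟩
  · rw [gf.mem_toFinset] at hz
    exact ⟨((hG z).1 hz).1, k1 z hz, fun y hy => iso z R (k1 z hz) y (gf.mem_toFinset.1 hy)⟩
  · obtain ⟨t, ⟨-, t1 | ⟨z, z1, rfl⟩⟩, t2⟩ := k u (subset_closure hu)
    · exact Or.inl (t1.mono t2)
    · exact Or.inr ⟨z, gf.mem_toFinset.2 z1, t2⟩

/-- The lattice point next to `z / a`. -/
noncomputable def lp (a : ℝ) (z : ℂ) : ℤ × ℤ := (⌊z.re / a⌋, ⌊z.im / a⌋)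

theorem lp_est {a : ℝ} (ha : 0 < a) (z : ℂ) : 100 * ‖pt a (lp a z) - z‖ ≤ 142 * a := by
  have k : ∀ x : ℝ, (a * ⌊x / a⌋ - x) ^ 2 ≤ a ^ 2 := fun x => by
    have h1 := (le_div_iff₀' ha).1 (Int.floor_le (x / a))
    have h2 := (div_lt_iff₀' ha).1 (Int.lt_floor_add_one (x / a))
    nlinarith
  refine le_of_sq_le_sq ?_ (by positivity)
  rw [mul_pow, nsq]
  simp only [pt, lp, Complex.sub_re, Complex.sub_im]
  nlinarith [k z.re, k z.im, sq_nonneg a]

theorem lp_near {a : ℝ} (ha : 0 < a) (z ν : ℂ) (hν : ‖ν‖ = 1) :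
    zd (lp a (z + (3 * a : ℝ) * ν) - lp a z) 0 ≤ 4 := by
  have k : ∀ x t : ℝ, |t| ≤ 1 → (⌊(x + 3 * a * t) / a⌋ - ⌊x / a⌋).natAbs ≤ 4 := fun x t ht => by
    rw [show (x + 3 * a * t) / a = x / a + 3 * t by field_simp]
    obtain ⟨t1, t2⟩ := abs_le.1 ht
    have h1 : ⌊x / a + 3 * t⌋ ≤ ⌊x / a + (3 : ℤ)⌋ := Int.floor_mono (by push_cast; linarith)
    have h2 : ⌊x / a + (-3 : ℤ)⌋ ≤ ⌊x / a + 3 * t⌋ := Int.floor_mono (by push_cast; linarith)
    rw [Int.floor_add_intCast] at h1 h2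
    omega
  have h1 := k z.re ν.re (hν ▸ Complex.abs_re_le_norm ν)
  have h2 := k z.im ν.im (hν ▸ Complex.abs_im_le_norm ν)
  simp only [zd, lp, Prod.fst_sub, Prod.snd_sub, Prod.fst_zero, Prod.snd_zero, sub_zero,
    Complex.add_re, Complex.add_im, Complex.re_ofReal_mul, Complex.im_ofReal_mul]
  exact max_le h1 h2

theorem pt_sub (a : ℝ) (x y : ℤ × ℤ) : pt a x - pt a y = pt a (x - y) := by
  rw [sub_eq_iff_eq_add, ← pt_add, sub_add_cancel]

theorem pt_le {a : ℝ} (ha : 0 < a) (x y : ℤ × ℤ) : ‖pt a x - pt a y‖ ≤ 2 * (a * zd x y) := by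
  rw [pt_sub, P144L.G.zd_sub]
  exact le_zd ha _

theorem le_pt {a : ℝ} (ha : 0 < a) (x y : ℤ × ℤ) : a * zd x y ≤ ‖pt a x - pt a y‖ := by
  rw [pt_sub, P144L.G.zd_sub]
  exact zd_le ha _

theorem pwM : PwM := by
  classical
  intro Ex ExZ hE D P hD hb h
  obtain ⟨G, R, R0, δ, δ0, hG, hU⟩ := cont hD hb h
  obtain ⟨n, hn⟩ := exists_nat_ge (100 + 100 / R)
  have n1 : (100 : ℝ) ≤ n := by linarith [show 0 ≤ 100 / R by positivity]
  have n2 : 100 ≤ R * n := by rw [← div_le_iff₀' R0]; linarith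
  refine ⟨min R δ / 10, by positivity, n, by exact_mod_cast (show (1 : ℝ) ≤ n by linarith),
    fun a ha Λ hΛ r hr har => ⟨G.image (lp a), fun p hp p' hp' ne => ?_, fun p hp => ?_,
      fun z hz ⟨u, u1, u2⟩ => ?_⟩⟩
  all_goals
    have r1 : (n : ℝ) ≤ r := by exact_mod_cast hr
    have r2 : 10 * (a * r) ≤ R := by linarith [min_le_left R δ]
    have r3 : 10 * (a * r) ≤ δ := by linarith [min_le_right R δ]
    have r4 : 100 * a ≤ a * r := by nlinarith
    have hL : ∀ x, x ∈ Λ ↔ pt a x ∈ D := hΛ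
    have hB : ∀ v, bcOf P a v = true ↔ pt a v ∈ P := fun v => by
      simp only [bcOf, decide_eq_true_eq]
      rfl
  · obtain ⟨z, z1, rfl⟩ := Finset.mem_image.1 hp
    obtain ⟨y, y1, rfl⟩ := Finset.mem_image.1 hp'
    by_contra c
    refine ne (congrArg _ ((hG y y1).2.2 z z1 ?_))
    have c1 : (zd (lp a z) (lp a y) : ℝ) ≤ 2 * r := by exact_mod_cast not_lt.1 c
    have c2 := pt_le ha (lp a z) (lp a y)
    have c3 := norm_sub_le_norm_sub_add_norm_sub z (pt a (lp a z)) y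
    have c4 := norm_sub_le_norm_sub_add_norm_sub (pt a (lp a z)) (pt a (lp a y)) y
    rw [norm_sub_rev z (pt _ _)] at c3
    rw [mem_ball_iff_norm]
    nlinarith [lp_est ha z, lp_est ha y]
  · obtain ⟨z, z1, rfl⟩ := Finset.mem_image.1 hp
    obtain ⟨z2, ⟨S, ν, τ, hν, hτ, hS, hX, e, k⟩, -⟩ := hG z z1
    have p1 := lp_est ha z
    have hb : ∀ x, zd x (lp a z) ≤ 2 * r → pt a x ∈ ball z R := fun x hx => by
      have c1 : (zd x (lp a z) : ℝ) ≤ 2 * r := by exact_mod_cast hx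
      have c2 := pt_le ha x (lp a z)
      have c3 := norm_sub_le_norm_sub_add_norm_sub (pt a x) (pt a (lp a z)) z
      rw [mem_ball_iff_norm]
      nlinarith
    have hz : ∀ v, zd (lp a z + v) (lp a z) = zd v 0 := fun v => by simp [zd]
    refine ⟨{v | pt a (lp a z + v) ∈ S}, ν, τ, hν, hτ, epi hS ha _, hE S hX a ha _,
      ⟨_, ?_, lp_near ha z ν hν⟩, ⟨_, fun c => ?_, lp_near ha z (-ν) (by simpa)⟩, fun v hv => ?_,
      fun v hv v1 u u1 u2 => ?_⟩
    · obtain ⟨s, s1, s2⟩ := Metric.mem_closure_iff.1 (frontier_subset_closure z2) (a / 100)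
        (by positivity)
      rw [dist_eq_norm] at s2
      have c1 := lp_est ha (z + (3 * a : ℝ) * ν)
      have c2 := hS s ((e s (by rw [mem_ball_iff_norm']; linarith)).1 s1)
        (pt a (lp a (z + (3 * a : ℝ) * ν)) - s) (cone_of (t := 3 * a) hν (by
          have := norm_add_le (pt a (lp a (z + (3 * a : ℝ) * ν)) - (z + (3 * a : ℝ) * ν)) (z - s)
          rw [show ∀ w : ℂ, w - s - (3 * a : ℝ) * ν = w - (z + (3 * a : ℝ) * ν) + (z - s) from
            fun w => by ring]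
          linarith))
      simpa using c2
    · have c1 := lp_est ha (z + (3 * a : ℝ) * -ν)
      simp only [mem_ofPred_eq, add_sub_cancel] at c
      have c2 := hS _ c (z - pt a (lp a (z + (3 * a : ℝ) * -ν))) (cone_of (t := 3 * a) hν (by
        rw [show ∀ w : ℂ, z - w - (3 * a : ℝ) * ν = -(w - (z + (3 * a : ℝ) * -ν)) from
          fun w => by ring, norm_neg]
        linarith))
      rw [add_sub_cancel, ← e z (mem_ball_self R0)] at c2
      exact z2.2 (by rwa [hD.interior_eq])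
    · rw [hL]
      exact e _ (hb _ (by rw [hz]; omega))
    · have c0 : zd u (lp a z + v) ≤ n * (zd u (lp a z + v) + 1) := by
        have : 1 ≤ n := by exact_mod_cast (show (1 : ℝ) ≤ n by linarith)
        nlinarith
      have c1 : zd u (lp a z) ≤ zd u (lp a z + v) + zd (lp a z + v) (lp a z) := by
        simp only [zd]
        omega
      have c2 := pt_le ha u (lp a z + v)
      have c3 := le_pt ha (lp a z + v) (lp a z)
      have c4 := norm_sub_le_norm_sub_add_norm_sub (pt a (lp a z + v)) z (pt a (lp a z))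
      have c5 : (n : ℝ) * (zd u (lp a z + v) + 1) ≤ zd v 0 := by exact_mod_cast u2
      rw [hz] at c1 c3
      rw [norm_sub_rev z] at c4
      rw [norm_sub_rev] at c2
      have c6 : (0 : ℝ) ≤ zd u (lp a z + v) := by positivity
      have c7 : 100 * a ≤ a * zd v 0 := by
        nlinarith [show (100 : ℝ) ≤ zd v 0 by nlinarith]
      have c8 : a * zd v 0 / 2 ≤ ‖pt a (lp a z + v) - z‖ := by linarith
      have c9 : 100 * (zd u (lp a z + v) : ℝ) ≤ R * zd v 0 := by nlinarith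
      rw [hB, k _ (hb _ (by rw [hz]; omega)) (mt (hL _).2 v1) _ (hb u (by omega)) ((hL _).1 u1)
        (by nlinarith [mul_le_mul_of_nonneg_left c9 ha.le, mul_le_mul_of_nonneg_left c8 R0.le])
        (-(pt a (lp a z) - z)) (by rw [norm_neg]; linarith), pt_add,
        show ∀ x y : ℂ, x + y - z + -(x - z) = y from fun x y => by ring,
        show dt (pt a v) τ = a * ht τ v by simp only [dt, pt, ht]; ring, mul_pos_iff_of_pos_left ha]
  · have n0 : (0 : ℝ) < n := by linarith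
    have hb : ∀ v, n * zd v z ≤ r → pt a v ∈ closedBall (pt a z) (2 * (a * r) / n) := fun v hv => by
      have c1 : (n : ℝ) * zd v z ≤ r := by exact_mod_cast hv
      rw [mem_closedBall_iff_norm, le_div_iff₀ n0]
      nlinarith [mul_le_mul_of_nonneg_right (pt_le ha v z) n0.le]
    have c1 : 2 * (a * r) / n ≤ a * r / 50 := by
      rw [div_le_iff₀ n0]
      nlinarith
    have c2 : closedBall (pt a z) (2 * (a * r) / n) ⊆ ball (pt a u) δ :=
      closedBall_subset_ball' (by linarith [mem_closedBall'.1 (hb u u2)])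
    have c3 : Cs D P (closedBall (pt a z) (2 * (a * r) / n)) := by
      obtain k | ⟨y, y1, k⟩ := hU _ ((hL u).1 u1)
      · exact k.mono c2
      have d1 : (r : ℝ) < 2 * zd z (lp a y) := by
        exact_mod_cast hz _ (Finset.mem_image_of_mem _ y1)
      have d2 := le_pt ha z (lp a y)
      have d3 := norm_sub_le_norm_sub_add_norm_sub (pt a z) y (pt a (lp a y))
      rw [norm_sub_rev y] at d3
      have d4 : a * r / 4 ≤ ‖pt a z - y‖ := by nlinarith [lp_est ha y]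
      refine (hG y y1).2.1.cs (c2.trans k) (hb u u2) ((hL u).1 u1) (by linarith) ?_
      refine le_trans ?_ (mul_le_mul_of_nonneg_left d4 R0.le)
      rw [← mul_div_assoc, div_le_iff₀ n0]
      nlinarith
    rcases c3 with k | k
    · exact ⟨true, fun v hv v1 => (hB v).2 (k ⟨hb v hv, mt (hL v).2 v1⟩)⟩
    · exact ⟨false, fun v hv v1 => by
        rw [← Bool.not_eq_true, hB]
        exact k ⟨hb v hv, mt (hL v).2 v1⟩⟩

end Vale.Agent.P144C.P
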