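import Vale.Agent.P144C.Defs
import Vale.Agent.P144L.H.Bhp
import Vale.Agent.P144L.D.Deep

/-!
Positive superharmonic functions above a graph of slope one.
-/

set_option linter.all false

namespace Vale.Agent.P144C.P

open Finset Vale.Agent.P144Z Vale.Agent.P144L P144L.G P144L.H GeoA

variable {out : ℤ × ℤ → Prop} {ν : ℂ} {y : ℤ × ℤ}

/-- Nonnegative at the outer sites, superharmonic at the inner sites. -/
def Sp (out : ℤ × ℤ → Prop) (y : ℤ × ℤ) (R : ℕ) (f : ℤ × ℤ → ℝ) : Prop :=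
  ∀ v, zd v y ≤ R → (out v → 0 ≤ f v) ∧ (¬ out v → SupH f v)

theorem strip (h : Ou out ν) {d R : ℕ} (hd : 2 ≤ d) {g : ℤ × ℤ → ℝ} {t : ℝ} (ht : 0 ≤ t)
    (H : Sp out y R g) (h1 : ∀ v, zd v y ≤ R → -t ≤ g v)
    (h2 : ∀ v, zd v y ≤ R → In out d v → 0 ≤ g v) (i : ℕ) :
    ∀ v, zd v y + 26 * d * i ≤ R → -(An1.th 8 ^ i * t) ≤ g v := by
  induction i with
  | zero => simpa using h1
  | succ i ih =>
    intro v hv
    have t0 : 0 ≤ An1.th 8 ^ i * t := mul_nonneg (pow_nonneg (An1.th_pos 8).le _) ht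
    by_cases hin : In out d v
    · refine le_trans ?_ (h2 v (by omega) hin)
      exact neg_nonpos.2 (mul_nonneg (pow_nonneg (An1.th_pos 8).le _) ht)
    obtain ⟨o, o1, o2⟩ : ∃ o, zd o v ≤ d ∧ out o := by
      by_contra k
      exact hin fun o o1 o2 => k ⟨o, o1, o2⟩
    obtain ⟨x, x1, x2⟩ := thick h (show 1 ≤ d by omega) o2
    have tr : ∀ u, zd (v + u) y ≤ zd u 0 + zd v y := fun u => by
      have := GeoA.zd_tri (v + u) v y
      rwa [zd_shift] at this
    rw [mul_add, mul_one] at hv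
    have k := An1.step (N := 8) (ρ := 26 * d) (σ := d) (g := fun u => -g (v + u))
      (S := An1.th 8 ^ i * t) (fun u hu hp => by
        have a := tr u
        have b := (H (v + u) (by omega)).2 fun ho => by
          have := (H _ (by omega)).1 ho
          simp only at hp
          linarith
        refine ⟨fun a => -g (v + (u + st4 a)) - -g (v + u), ?_, fun a => Or.inl le_rfl⟩
        simp only [SupH, Fin.sum_univ_four, ← add_assoc] at b ⊢
        linarith) hd le_rfl t0 (x := x - v) (by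
        have := GeoA.zd_tri x o v
        rw [show zd (x - v) 0 = zd x v by simp [zd]]
        omega) (fun u hu hu' => by
        have a := tr u
        have e : zd (v + u) x = zd u (x - v) := by
          simp only [zd, Prod.fst_add, Prod.snd_add, Prod.fst_sub, Prod.snd_sub]
          congr 2 <;> ring
        exact neg_nonpos.2 ((H _ (by omega)).1 (x2 _ (by omega)))) (fun u hu => by
        have a := tr u
        exact neg_le.1 (ih _ (by omega))) 0 (by simp [zd])
    simp only [add_zero] at k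
    rw [pow_succ', mul_assoc]
    linarith

theorem supH_add {f : ℤ × ℤ → ℝ} {v : ℤ × ℤ} (h : SupH f v) (t : ℝ) :
    SupH (fun u => f u + t) v := by
  simpa only [SupH, add_sub_add_right_eq_sub] using h

theorem line {F : ℤ × ℤ → ℝ} {v e : ℤ × ℤ} (he : ∃ a, st4 a = e) (n : ℕ)
    (h : ∀ k : ℕ, k < n → SupH F (v + (k : ℤ) • e) ∧ ∀ a, 0 ≤ F (v + (k : ℤ) • e + st4 a)) :
    F (v + (n : ℤ) • e) ≤ 4 ^ n * F v := by
  obtain ⟨a, rfl⟩ := he
  induction n with
  | zero => simp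
  | succ n ih =>
    have a1 := nbr (h n (by omega)).1 (h n (by omega)).2 a
    have a2 := ih fun k hk => h k (by omega)
    rw [Nat.cast_succ, add_smul, one_smul, ← add_assoc, pow_succ]
    linarith

/-- From an inner site to a deep site. -/
theorem climb (h : Ou out ν) {F : ℤ × ℤ → ℝ} {d : ℕ} (hy : ¬ out y)
    (hF : ∀ v, zd v y ≤ 4 * d + 1 → 0 ≤ F v ∧ (¬ out v → SupH F v)) :
    ∃ x, zd x y ≤ 4 * d ∧ In out d x ∧ F x ≤ 4 ^ (6 * d) * F y := by
  obtain ⟨e, e', he, hc⟩ := D.oct h.nrm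
  have inn : ∀ v, D.Oc e e' (v - y) → ¬ out v := fun v k => D.inn h hy (hc _ k)
  have ax : (∃ a, st4 a = e) ∧ ∃ a, st4 a = e' := by
    rcases he with ⟨rfl | rfl, rfl | rfl⟩ | ⟨rfl | rfl, rfl | rfl⟩ <;> decide
  have ok : ∀ v, zd v y ≤ 4 * d → D.Oc e e' (v - y) → SupH F v ∧ ∀ a, 0 ≤ F (v + st4 a) :=
    fun v h1 h2 => ⟨(hF v (by omega)).2 (inn v h2), fun a => (hF _ (by
      have := zd_tri (v + st4 a) v y
      have := zd_st4 a
      rw [zd_shift] at *
      omega)).1⟩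
  have a1 := line (F := F) (v := y) ax.1 (4 * d) fun k hk => ok _ (by
    rcases he with ⟨rfl | rfl, rfl | rfl⟩ | ⟨rfl | rfl, rfl | rfl⟩ <;> simp [zd] <;> omega) (by
    rcases he with ⟨rfl | rfl, rfl | rfl⟩ | ⟨rfl | rfl, rfl | rfl⟩ <;> simp [D.Oc])
  have a2 := line (F := F) (v := y + ((4 * d : ℕ) : ℤ) • e) ax.2 (2 * d) fun k hk => ok _ (by
    rcases he with ⟨rfl | rfl, rfl | rfl⟩ | ⟨rfl | rfl, rfl | rfl⟩ <;> simp [zd] <;> omega) (by
    rcases he with ⟨rfl | rfl, rfl | rfl⟩ | ⟨rfl | rfl, rfl | rfl⟩ <;> simp [D.Oc] <;> omega)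
  refine ⟨_, ?_, fun v hv => inn v ?_, a2.trans ?_⟩
  · rcases he with ⟨rfl | rfl, rfl | rfl⟩ | ⟨rfl | rfl, rfl | rfl⟩ <;> simp [zd] <;> omega
  · rcases he with ⟨rfl | rfl, rfl | rfl⟩ | ⟨rfl | rfl, rfl | rfl⟩ <;>
      simp [zd, D.Oc] at hv ⊢ <;> omega
  · rw [show 6 * d = 2 * d + 4 * d by ring, pow_add, mul_assoc]
    exact mul_le_mul_of_nonneg_left a1 (by positivity)

/-- The iteration. -/
theorem iter : ∃ (P : ℕ) (B : ℝ), 1 ≤ P ∧ 0 < B ∧ ∀ out ν, Ou out ν → ∀ (y : ℤ × ℤ)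
    (f : ℤ × ℤ → ℝ) (k : ℕ) (t : ℝ), 0 ≤ t → Sp out y (P * (2 ^ k * 100)) f →
    (∀ v, zd v y ≤ P * (2 ^ k * 100) → -t ≤ f v ∧ (In out (2 ^ k * 100) v → B * t ≤ f v)) →
      0 ≤ f y := by
  obtain ⟨Q, hQ, hC⟩ := D.chnL
  obtain ⟨c, c0, hC⟩ := hC 28 (by omega)
  obtain ⟨i, hi⟩ := exists_pow_lt_of_lt_one (half_pos c0) (An1.th_lt 8)
  obtain ⟨B, B1, B2⟩ : ∃ B : ℝ, 4 ^ (6 * 100) ≤ B ∧ 2 ≤ c * B :=
    ⟨4 ^ (6 * 100) + 2 / c, le_add_of_nonneg_right (by positivity), by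
      rw [mul_add, mul_div_cancel₀ _ c0.ne']
      exact le_add_of_nonneg_left (by positivity)⟩
  have B0 : 0 < B := lt_of_lt_of_le (by positivity) B1
  obtain ⟨P, p1, p2, p3⟩ : ∃ P, 30 ≤ P ∧ 52 * i ≤ P ∧ Q * 28 ≤ P := ⟨30 + 52 * i + Q * 28, by omega⟩
  refine ⟨P, B, by omega, B0, fun out ν ho y f k => ?_⟩
  induction k with
  | zero =>
    intro t ht hf hb
    rw [pow_zero, one_mul] at hf hb
    by_cases o : out y
    · exact (hf y (by simp [zd])).1 o
    obtain ⟨x, x1, x2, x3⟩ := climb ho (F := fun u => f u + t) (d := 100) o fun v hv =>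
      ⟨by linarith [(hb v (by omega)).1], fun o => supH_add ((hf v (by omega)).2 o) t⟩
    have a1 := (hb x (by omega)).2 x2
    have a2 := mul_le_mul_of_nonneg_right B1 ht
    generalize (4 : ℝ) ^ (6 * 100) = E at *
    by_contra n
    have a3 : 0 ≤ f y + t := by linarith [(hb y (by simp [zd])).1]
    nlinarith [mul_le_mul_of_nonneg_right B1 a3]
  | succ k ih =>
    intro t ht hf hb
    have d0 : 100 ≤ 2 ^ k * 100 := Nat.le_mul_of_pos_left _ (by positivity)
    rw [pow_succ, mul_right_comm, ← mul_assoc] at hf hb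
    generalize 2 ^ k * 100 = d at *
    have a1 : 30 * d ≤ P * d := Nat.mul_le_mul_right _ p1
    have a2 : 26 * (d * 2) * i ≤ P * d := (le_of_eq (by ring)).trans (Nat.mul_le_mul_right _ p2)
    have a3 : Q * (28 * d) ≤ P * d := by
      rw [← mul_assoc]
      exact Nat.mul_le_mul_right _ p3
    have Bt := mul_nonneg B0.le ht
    refine ih (c / 2 * t) (by positivity) (fun v hv => hf v (by omega)) fun v hv => ⟨?_, fun hi => ?_⟩
    · refine le_trans (neg_le_neg (mul_le_mul_of_nonneg_right hi.le ht))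
        (strip ho (by omega) ht hf (fun v hv => (hb v hv).1)
          (fun v hv o => Bt.trans ((hb v hv).2 o)) i v (by omega))
    · obtain ⟨x, x1, x2⟩ := deep ho (d := 4 * d) (by omega) (hi v (by simp [zd]))
      have k := hC out ν ho v x v d (fun u => f u + t) (B * t) d0 Bt (by omega) (by simp [zd])
        (fun u hu => x2 u (by omega)) hi (fun u hu o => by
          have := zd_tri u v y
          exact ⟨by linarith [(hb u (by omega)).1], supH_add ((hf u (by omega)).2 o) t⟩)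
        fun u hu => by
          have := zd_tri u x v
          have := zd_tri u v y
          have := (hb u (by omega)).2 fun z hz => x2 z (by
            have := zd_tri z u x
            omega)
          linarith
      have := mul_le_mul_of_nonneg_right B2 ht
      linarith

theorem mas : ∃ Q ρ₀ : ℕ, ∃ c > (0 : ℝ), 1 ≤ Q ∧ ∀ out ν (y : ℤ × ℤ) (ρ : ℕ)
    (w g : ℤ × ℤ → ℝ) (A G : ℝ), Ou out ν → Bp out y → zd y 0 ≤ 1 → ρ₀ ≤ ρ → 0 ≤ A → 0 ≤ G →
    (∀ v, zd v 0 ≤ Q * ρ → 0 ≤ w v ∧ (¬ out v → SupH w v)) → Dq w ν ρ A →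
    (∀ v, zd v 0 ≤ Q * ρ → g v ≤ G ∧ (out v → g v ≤ 0) ∧ (¬ out v → SupH (-g) v)) →
      ∀ v, zd v 0 ≤ 2 * ρ → c * A * g v ≤ G * w v := by
  obtain ⟨P, B, p1, B0, hI⟩ := iter
  obtain ⟨Q, hQ, hC⟩ := D.chnL
  obtain ⟨c, c0, hC⟩ := hC (80 + P) (by omega)
  refine ⟨Q * (80 + P), 2000, c / (B + 1), by positivity, Nat.mul_pos hQ (by omega),
    fun out ν y ρ w g A G ho ⟨_, x, x1, x2⟩ y1 hρ hA hG hw hD hg v hv => ?_⟩
  obtain ⟨k, k1, k2⟩ : ∃ k, 20 * (2 ^ k * 100) ≤ ρ ∧ ρ ≤ 40 * (2 ^ k * 100) := by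
    have a1 := Nat.pow_log_le_self 2 (x := ρ / 2000) (by omega)
    have a2 := Nat.lt_pow_succ_log_self one_lt_two (ρ / 2000)
    rw [pow_succ] at a2
    exact ⟨Nat.log 2 (ρ / 2000), by omega, by omega⟩
  have d0 : 100 ≤ 2 ^ k * 100 := Nat.le_mul_of_pos_left _ (by positivity)
  obtain ⟨e, he⟩ : ∃ e, e = c / (B + 1) := ⟨_, rfl⟩
  have e0 : 0 < e := by rw [he]; positivity
  have e1 : e * (B + 1) = c := by rw [he]; field_simp
  rw [← he]
  replace hI := hI out ν ho v (fun u => G * w u - e * A * g u) k (e * A * G) (by positivity)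
  generalize 2 ^ k * 100 = d at *
  have a1 : (80 + P) * d = 80 * d + P * d := by ring
  have a2 : (80 + P) * d ≤ Q * ((80 + P) * d) := Nat.le_mul_of_pos_left _ hQ
  have a3 : Q * ((80 + P) * d) ≤ Q * (80 + P) * ρ := by
    rw [← mul_assoc]
    exact Nat.mul_le_mul_left _ (by omega)
  have eA := mul_nonneg e0.le hA
  refine sub_nonneg.1 (hI (fun u hu => ?_) fun u hu => ?_)
  · have := zd_tri u v 0
    obtain ⟨w1, w2⟩ := hw u (by omega)
    obtain ⟨-, g2, g3⟩ := hg u (by omega)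
    refine ⟨fun o => ?_, fun o => ?_⟩
    · nlinarith [mul_nonneg hG w1, mul_nonneg eA (neg_nonneg.2 (g2 o))]
    · have b1 := mul_nonneg hG (neg_nonneg.2 (w2 o))
      have b2 := mul_nonneg eA (neg_nonneg.2 (g3 o))
      simp only [SupH, Fin.sum_univ_four, Pi.neg_apply] at b1 b2 ⊢
      linarith
  · have := zd_tri u v 0
    have b1 := mul_nonneg hG (hw u (by omega)).1
    have b2 := mul_le_mul_of_nonneg_left (hg u (by omega)).1 eA
    refine ⟨by linarith, fun hi => ?_⟩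
    have b3 := zd_rd ho.nrm ρ
    have b4 := hC out ν ho 0 (rd ν ρ) u d w A d0 hA (by omega) (by omega) (fun z hz =>
      D.inn ho x2 (by
        rw [show z - x = rd ν ρ + (z - rd ν ρ - x) by abel]
        refine cn_rd ho.nrm (D := d + 25) (by omega) ?_
        have c1 := B1b.zd_sub (z - rd ν ρ) x
        have c2 := zd_tri x y 0
        rw [← P144L.G.zd_sub z] at c1
        omega)) hi (fun z hz o => ⟨(hw z (by omega)).1, (hw z (by omega)).2 o⟩)
      fun z hz => hD z (by omega)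
    have b5 := mul_le_mul_of_nonneg_left b4 hG
    rw [← e1] at b5
    linarith

theorem masM : MasM := by
  obtain ⟨Q, ρ₀, c, c0, hQ, h⟩ := mas
  exact ⟨Q, ρ₀, c, c0, hQ, fun out ν y ρ w g A G a1 a2 a3 a4 a5 a6 a7 a8 a9 v hv =>
    h out ν y ρ w g A G a1 a2 a3 a4 a5 a6 a7 a8 a9 v (by omega)⟩

theorem len_sq (v : ℤ × ℤ) : len v ^ 2 = (v.1 : ℝ) ^ 2 + (v.2 : ℝ) ^ 2 :=
  Real.sq_sqrt (by positivity)

theorem lowM : LowM := by
  classical
  obtain ⟨Q, ρ₀, c, c0, hQ, h⟩ := mas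
  refine ⟨Q, ρ₀ + 4000, c / (80 * (Q + 1) ^ 2), by positivity, hQ,
    fun out ν y ρ w A ho ⟨y0, x, x1, x2⟩ y1 hA hw hD s s1 s2 v hv => ?_⟩
  have hν := ho.nrm
  have x3 : zd x 0 ≤ 25 := by
    have := zd_tri x y 0
    omega
  have h2 : (√2 / 2) ^ 2 = 1 / 2 := by rw [div_pow, Real.sq_sqrt (by norm_num)]; norm_num
  obtain ⟨q, hq⟩ : ∃ q : ℤ × ℤ → ℝ, ∀ u, q u = 2 * ht ν u ^ 2 - len u ^ 2 - 2 := ⟨_, fun _ => rfl⟩
  have k := h (fun u => ¬ Cn ν (u - x)) ν y ρ w (fun u => if Cn ν (u - x) then q (u - x) else 0) A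
    ((2 * (Q + 1) * ρ) ^ 2) ⟨hν, fun u c hc o k => o ?_⟩
    ⟨fun k => D.inn ho x2 k y0, x, x1, not_not.2 (by simp [Cn, len, ht])⟩ y1 (by omega) hA
    (by positivity) (fun u hu => ⟨(hw u hu).1, fun o => (hw u hu).2 (D.inn ho x2 (not_not.1 o))⟩) hD
    (fun u hu => ⟨?_, fun o => (if_neg o).le, fun o => ?_⟩) v (by
      have := zd_tri v (rd ν s) 0
      have := zd_rd hν s
      omega)
  · have c1 := B1b.zd_sub (v - rd ν s) x
    rw [← G.zd_sub v] at c1
    have c2 : v - x = rd ν s + (v - rd ν s - x) := by abel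
    obtain ⟨c3, c4⟩ := rd_est hν s (v - rd ν s - x)
    have c5 := cn_rd hν (t := s) (D := s / 10 + 25) (d := v - rd ν s - x) (by omega) (by omega)
    rw [← c2] at c3 c4 c5
    have c6 : (10 * zd (v - rd ν s - x) 0 : ℝ) ≤ s + 250 := by
      exact_mod_cast (show 10 * zd (v - rd ν s - x) 0 ≤ s + 250 by omega)
    have c7 : (4000 : ℝ) ≤ s := by exact_mod_cast (show 4000 ≤ s by omega)
    have c8 : (s : ℝ) ≤ ρ := by exact_mod_cast s2
    have c9 : (s : ℝ) ^ 2 / 20 ≤ q (v - x) := by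
      rw [hq]
      have d1 : len (v - x) ^ 2 ≤ (1.16 * s) ^ 2 := pow_le_pow_left₀ (len_nonneg _) (by linarith) 2
      have d2 : (0.84 * s) ^ 2 ≤ ht ν (v - x) ^ 2 := pow_le_pow_left₀ (by linarith) (by linarith) 2
      nlinarith
    simp only [if_pos c5] at k
    have d1 := (mul_le_mul_of_nonneg_left c9 (mul_nonneg c0.le hA)).trans k
    have d2 : (0 : ℝ) < ρ := by linarith
    refine le_of_mul_le_mul_left (le_trans (le_of_eq ?_) d1) (by positivity)
    field_simp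
    ring
  · have a1 := len_add (u - x) c
    unfold Cn at *
    rw [show u + c - x = u - x + c by abel, B1b.ht_add]
    nlinarith [s2_ge]
  · have a1 := B1b.zd_sub u x
    have a2 := len_zd (u - x)
    have a3 : (zd (u - x) 0 : ℝ) ≤ Q * ρ + ρ := by
      exact_mod_cast (show zd (u - x) 0 ≤ Q * ρ + ρ by omega)
    have a4 := sq_le_sq' (abs_le.1 (abs_ht hν (u - x))).1 (abs_le.1 (abs_ht hν (u - x))).2
    have a5 : (0 : ℝ) ≤ Q * ρ + ρ := by positivity
    have a6 : len (u - x) ^ 2 ≤ (2 * (Q + 1) * ρ) ^ 2 :=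
      pow_le_pow_left₀ (len_nonneg _) (by linarith) 2
    split_ifs
    · rw [hq]
      linarith
    · positivity
  · have o' := not_not.1 o
    have a1 : ∀ a, q (u - x + st4 a) ≤
        if Cn ν (u + st4 a - x) then q (u + st4 a - x) else 0 := fun a => by
      rw [show u + st4 a - x = u - x + st4 a by abel]
      split_ifs with b
      · exact le_rfl
      have b1 := len_nonneg (u - x + st4 a)
      have b2 : 0 ≤ ht ν (u - x) := le_trans (mul_nonneg (by positivity) (len_nonneg _)) o'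
      have b3 : -1 ≤ ht ν (st4 a) := by
        have := (abs_le.1 (abs_ht hν (st4 a))).1
        have e : len (st4 a) = 1 := by fin_cases a <;> simp [len, st4]
        rwa [e] at this
      have b4 := B1b.ht_add ν (u - x) (st4 a)
      rw [hq]
      unfold Cn at b
      rcases le_total 0 (ht ν (u - x + st4 a)) with b5 | b5
      · have := pow_le_pow_left₀ b5 (not_le.1 b).le 2
        rw [mul_pow, h2] at this
        linarith
      · nlinarith [sq_nonneg (len (u - x + st4 a))]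
    have a2 : ∑ a, (q (u - x + st4 a) - q (u - x)) = 0 := by
      have := sq_add hν
      simp only [hq, len_sq, ht, Fin.sum_univ_four, st4, Matrix.cons_val, Prod.fst_add, Prod.snd_add]
      push_cast
      linear_combination 4 * this
    simp only [SupH, Fin.sum_univ_four, Pi.neg_apply, if_pos o'] at a2 ⊢
    linarith [a1 0, a1 1, a1 2, a1 3]

end Vale.Agent.P144C.P
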